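import Vale.Agent.P172.Sub
import Vale.Agent.P198.Main

namespace Vale.Agent.Results.P172.Quasiconvex

open Vale.Agent.P198 Vale.Agent.P172

theorem result {G H : Type*} [Group G] [Group H] (S : Finset G)
    (hS : Subgroup.closure (S : Set G) = ⊤) (hyp : IsHyperbolic S)
    (hb : Nonempty (Boundary S ≃ₜ Metric.sphere (0 : EuclideanSpace ℝ (Fin 3)) 1))
    (T : Finset H) (hT : Subgroup.closure (T : Set H) = ⊤) (φ : H →* G)
    (hφ : ∃ A : ℕ, ∀ a : H, wlen T a ≤ A * wlen S (φ a) + A) :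
    ∃ (X : Type) (_ : MetricSpace X) (ρ : H →* (X ≃ᵢ X)), Nonempty X ∧ ProperSpace X ∧
      CAT UpperHalfPlane X ∧ CAT (EuclideanSpace ℝ (Fin 2)) X ∧ GeomAct ρ :=
  let ⟨_, h⟩ := main S hS hyp hb
  let ⟨_, hA⟩ := hφ
  of_undistorted h hS hT φ hA

end Vale.Agent.Results.P172.Quasiconvex
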