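import Vale.Agent.P172.Hyp
import Vale.Agent.P198.Main

namespace Vale.Agent.Results.P172.Sphere

open Vale.Agent.P198 Vale.Agent.P172

theorem result {G : Type*} [Group G] (S : Finset G) (hS : Subgroup.closure (S : Set G) = ⊤)
    (hyp : IsHyperbolic S)
    (hb : Nonempty (Boundary S ≃ₜ Metric.sphere (0 : EuclideanSpace ℝ (Fin 3)) 1)) :
    ∃ (X : Type) (_ : MetricSpace X) (ρ : G →* (X ≃ᵢ X)), Nonempty X ∧ ProperSpace X ∧
      CAT UpperHalfPlane X ∧ CAT (EuclideanSpace ℝ (Fin 2)) X ∧ GeomAct ρ :=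
  let ⟨_, h⟩ := main S hS hyp hb
  of_geometric h

end Vale.Agent.Results.P172.Sphere
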